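import Vale.Agent.P088.R2.H644.W.SymV
import Vale.Agent.P088.R2.H644.W.Qf

/-!
# P088: the slots `sx s`, `sy s` and the near weight `Φ(u) + e^u S(r²)` as families of symbols
-/

open Set Filter
open scoped ContDiff Topology Matrix

noncomputable section

namespace Vale.Agent.P088.R2.H644.Sy

open Vale.Agent.P088.R2.H961.GW

variable {E ι κ : Type*} [NormedAddCommGroup E] [NormedSpace ℝ E] [Fintype ι] [Fintype κ]
  {σ : Sl E ι} {τ : Sl E κ} {U : Set E} {W W' f f' : E → ℝ} {z : E} {C m κ' δ : ℝ}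

theorem L_cg (σ : Sl E ι) (hU : IsOpen U) (e : ∀ z ∈ U, f z = f' z) (hz : z ∈ U) :
    σ.Λ f z = σ.Λ f' z := by
  unfold Sl.Λ
  refine Finset.sum_congr rfl fun i _ => Finset.sum_congr rfl fun j _ => ?_
  rw [D_congr σ hU (fun z hz => D_congr σ hU e j hz) i hz, D_congr σ hU e j hz]

/-- The bounds only depend on the germ of the weight. -/
theorem B0.congr (b : B0 σ τ W z C m κ' δ) (hU : IsOpen U) (e : ∀ z ∈ U, W' z = W z)
    (hz : z ∈ U) : B0 σ τ W' z C m κ' δ where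
  C0 := b.C0
  n0 := b.n0
  k0 := b.k0
  δ0 := b.δ0
  δ1 := b.δ1
  s1 := b.s1
  s2 := b.s2
  ds1 := b.ds1
  ds2 := b.ds2
  dds1 := b.dds1
  dds2 := b.dds2
  d1 i := by rw [D_congr σ hU e i hz]; exact b.d1 i
  d2 i := by rw [D_congr τ hU e i hz]; exact b.d2 i
  d11 i j := by
    rw [D_congr σ hU (fun z hz => D_congr σ hU e j hz) i hz]; exact b.d11 i j
  d12 i j := by
    rw [D_congr σ hU (fun z hz => D_congr τ hU e j hz) i hz]; exact b.d12 i j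
  d22 i j := by
    rw [D_congr τ hU (fun z hz => D_congr τ hU e j hz) i hz]; exact b.d22 i j
  L1 := by rw [L_cg σ hU e hz]; exact b.L1
  L2 := by rw [L_cg τ hU e hz]; exact b.L2
  D11 i := by rw [D_congr σ hU (fun z hz => L_cg σ hU e hz) i hz]; exact b.D11 i
  D12 i := by rw [D_congr σ hU (fun z hz => L_cg τ hU e hz) i hz]; exact b.D12 i
  D21 i := by rw [D_congr τ hU (fun z hz => L_cg σ hU e hz) i hz]; exact b.D21 i
  D22 i := by rw [D_congr τ hU (fun z hz => L_cg τ hU e hz) i hz]; exact b.D22 i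
  L11 := by rw [L_cg σ hU (fun z hz => L_cg σ hU e hz) hz]; exact b.L11
  L12 := by rw [L_cg σ hU (fun z hz => L_cg τ hU e hz) hz]; exact b.L12
  L22 := by rw [L_cg τ hU (fun z hz => L_cg τ hU e hz) hz]; exact b.L22

end Vale.Agent.P088.R2.H644.Sy

namespace Vale.Agent.P088.R2.H644.Ep

open Vale.Agent.P088.LR Vale.Agent.P088.HY Vale.Agent.P088.R2.H961.GW Vale.Agent.P088.R2.H644.Ch
open Vale.Agent.P088.R2.H644.Sy Vale.Agent.P088.R2.H464.Cu Vale.Agent.P088.R2.H31.EP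

variable {n k : ℕ} {α : Type*} {O : α → Set (V n)} {U : α → Set (VV n)} {R δ : α → ℝ}
  {s : α → MF n}

/-! ## The slots -/

/-- Tensors at the scale `1` with `D s = O(δ)`. -/
structure Tn (O : α → Set (V n)) (s : α → MF n) (δ : α → ℝ) (k : ℕ) : Prop where
  s0 : ∀ i j, Sf O (fun _ _ => 1) (fun _ _ => 1) k (fun a x => s a x i j)
  s1 : ∀ i j, Sf O (fun _ _ => 1) (fun a _ => δ a) k (fun a => fderiv ℝ fun x => s a x i j)

theorem Tn.of_R (oO : ∀ a, IsOpen (O a)) (hR : ∀ a, 1 ≤ R a)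
    (h : ∀ i j, Sf O (fun a _ => R a) (fun _ _ => 1) (k + 1) (fun a x => s a x i j)) :
    Tn O s (fun a => (R a)⁻¹) k where
  s0 i j := ((h i j).mono_k (Nat.le_succ k)).mono_ρ (fun a _ _ => one_pos.trans_le (hR a))
    (fun _ _ _ => one_pos) (fun _ _ _ => zero_le_one) (A := 1) fun a _ _ => by
      rw [one_mul]; exact hR a
  s1 i j := (((h i j).fd oO).wcongr (g₁ := fun a _ => (R a)⁻¹) fun _ _ _ => by simp).mono_ρ
    (fun a _ _ => one_pos.trans_le (hR a)) (fun _ _ _ => one_pos)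
    (fun a _ _ => inv_nonneg.2 (zero_le_one.trans (hR a))) (A := 1) fun a _ _ => by
      rw [one_mul]; exact hR a

/-- The directions of the first slot. -/
def ex (i : Fin n) : VV n := (Pi.single i 1, 0)

/-- The directions of the second slot. -/
def ey (i : Fin n) : VV n := (0, Pi.single i 1)

theorem kx0 (s : MF n) (i : Fin n) (z : VV n) : (sx s).k i z = 0 := by
  have : pd i (fun _ : V n => (1 : ℝ)) z.1 = 0 := by
    unfold pd
    rw [fderiv_const_apply]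
    rfl
  simp [sx, slx, this]

theorem ky0 (s : MF n) (i : Fin n) (z : VV n) : (sy s).k i z = 0 := by
  have : pd i (fun _ : V n => (1 : ℝ)) z.2 = 0 := by
    unfold pd
    rw [fderiv_const_apply]
    rfl
  simp [sy, sly, this]

theorem lx_of {E ι : Type*} [NormedAddCommGroup E] [NormedSpace ℝ E] [Fintype ι] {σ : Sl E ι}
    (h : ∀ i z, σ.k i z = 0) (f : E → ℝ) (z : E) : σ.Λ f z = ∑ i, ∑ j,
      (σ.s i j z * σ.D i (σ.D j f) z + σ.D i (σ.s i j) z * σ.D j f z) := by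
  unfold Sl.Λ
  exact Finset.sum_congr rfl fun i _ => Finset.sum_congr rfl fun j _ => by
    rw [h, zero_mul, add_zero]

/-- The expanded form of `Λ`, first slot. -/
theorem Lx_x (s : MF n) (U : Set (VV n)) : Ch.Lx (sx s) U := fun f _ z _ => lx_of (kx0 s) f z

/-- The expanded form of `Λ`, second slot. -/
theorem Lx_y (s : MF n) (U : Set (VV n)) : Ch.Lx (sy s) U := fun f _ z _ => lx_of (ky0 s) f z

section slots

variable (oO : ∀ a, IsOpen (O a)) (oU : ∀ a, IsOpen (U a))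

include oO oU

/-- Functions of `x`. -/
theorem fst_s1 (hx : ∀ a, ∀ z ∈ U a, z.1 ∈ O a) {f : α → V n → ℝ}
    (hs : ∀ a, ContDiffOn ℝ ∞ (f a) (O a)) (δ0 : ∀ a, 0 ≤ δ a)
    (h : Sf O (fun _ _ => 1) (fun a _ => δ a) k (fun a => fderiv ℝ (f a))) :
    Sf U (fun _ _ => 1) (fun a _ => δ a) k (fun a => fderiv ℝ fun z : VV n => f a z.1) := by
  have h1 := (Sf.compL (U := U) oO h (ContinuousLinearMap.fst ℝ (V n) (V n)) hx
    (fun a _ _ => zero_le_one) (fun a _ _ => δ0 a)).clm oU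
    ((ContinuousLinearMap.compL ℝ (VV n) (V n) ℝ).flip (ContinuousLinearMap.fst ℝ (V n) (V n)))
  refine h1.congr oU fun a z hz => ?_
  have d1 := (df_of (oO a) (hs a) (hx a z hz)).hasFDerivAt
  exact (d1.comp z (hasFDerivAt_fst (𝕜 := ℝ) (E := V n) (F := V n) (p := z))).fderiv

/-- Functions of `y`. -/
theorem snd_s1 (hy : ∀ a, ∀ z ∈ U a, z.2 ∈ O a) {f : α → V n → ℝ}
    (hs : ∀ a, ContDiffOn ℝ ∞ (f a) (O a)) (δ0 : ∀ a, 0 ≤ δ a)
    (h : Sf O (fun _ _ => 1) (fun a _ => δ a) k (fun a => fderiv ℝ (f a))) :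
    Sf U (fun _ _ => 1) (fun a _ => δ a) k (fun a => fderiv ℝ fun z : VV n => f a z.2) := by
  have h1 := (Sf.compL (U := U) oO h (ContinuousLinearMap.snd ℝ (V n) (V n)) hy
    (fun a _ _ => zero_le_one) (fun a _ _ => δ0 a)).clm oU
    ((ContinuousLinearMap.compL ℝ (VV n) (V n) ℝ).flip (ContinuousLinearMap.snd ℝ (V n) (V n)))
  refine h1.congr oU fun a z hz => ?_
  have d1 := (df_of (oO a) (hs a) (hy a z hz)).hasFDerivAt
  exact (d1.comp z (hasFDerivAt_snd (𝕜 := ℝ) (E := V n) (F := V n) (p := z))).fderiv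

/-- **The first slot.** -/
theorem ft_x (hx : ∀ a, ∀ z ∈ U a, z.1 ∈ O a) (δ0 : ∀ a, 0 ≤ δ a) (t : Tn O s δ k) :
    FT (fun a => sx (s a)) ex U (fun a _ => δ a) k where
  one _ _ := rfl
  dir _ _ := rfl
  lx a f _ z _ := lx_of (kx0 (s a)) f z
  ss i j := Sf.compL (U := U) oO (t.s0 i j) (ContinuousLinearMap.fst ℝ (V n) (V n)) hx
    (fun a _ _ => zero_le_one) (fun a _ _ => zero_le_one)
  ds i j l := by
    have h := (fst_s1 oO oU hx (t.s0 i j).sm δ0 (t.s1 i j)).dir oU (ex l)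
    exact h.congr oU fun a z _ => by simp [Sl.D, sx, slx, ex]

/-- **The second slot.** -/
theorem ft_y (hy : ∀ a, ∀ z ∈ U a, z.2 ∈ O a) (δ0 : ∀ a, 0 ≤ δ a) (t : Tn O s δ k) :
    FT (fun a => sy (s a)) ey U (fun a _ => δ a) k where
  one _ _ := rfl
  dir _ _ := rfl
  lx a f _ z _ := lx_of (ky0 (s a)) f z
  ss i j := Sf.compL (U := U) oO (t.s0 i j) (ContinuousLinearMap.snd ℝ (V n) (V n)) hy
    (fun a _ _ => zero_le_one) (fun a _ _ => zero_le_one)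
  ds i j l := by
    have h := (snd_s1 oO oU hy (t.s0 i j).sm δ0 (t.s1 i j)).dir oU (ey l)
    exact h.congr oU fun a z _ => by simp [Sl.D, sy, sly, ey]

omit oU in
/-- The first slot at the scale `R`. -/
theorem fs_x (hx : ∀ a, ∀ z ∈ U a, z.1 ∈ O a) (hR : ∀ a, 0 < R a)
    (h : ∀ i j, Sf O (fun a _ => R a) (fun _ _ => 1) k (fun a x => s a x i j)) :
    FS (fun a => sx (s a)) ex U (fun a _ => R a) k where
  one _ _ := rfl
  dir _ _ := rfl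
  k0 a i z := kx0 (s a) i z
  ss i j := Sf.compL (U := U) oO (h i j) (ContinuousLinearMap.fst ℝ (V n) (V n)) hx
    (fun a _ _ => (hR a).le) (fun _ _ _ => zero_le_one)

omit oU in
/-- The second slot at the scale `R`. -/
theorem fs_y (hy : ∀ a, ∀ z ∈ U a, z.2 ∈ O a) (hR : ∀ a, 0 < R a)
    (h : ∀ i j, Sf O (fun a _ => R a) (fun _ _ => 1) k (fun a x => s a x i j)) :
    FS (fun a => sy (s a)) ey U (fun a _ => R a) k where
  one _ _ := rfl
  dir _ _ := rfl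
  k0 a i z := ky0 (s a) i z
  ss i j := Sf.compL (U := U) oO (h i j) (ContinuousLinearMap.snd ℝ (V n) (V n)) hy
    (fun a _ _ => (hR a).le) (fun _ _ _ => zero_le_one)

end slots

/-! ## The weight -/

/-- Families of slope parts. -/
structure Pc (F : α → Fu) : Prop where
  s : ∀ a, ContDiff ℝ ∞ (F a).Φ
  n : ∀ a t, 0 ≤ deriv (F a).Φ t
  k : ∀ a t, 0 ≤ deriv (deriv (F a).Φ) t
  kn : ∃ C, 0 ≤ C ∧ ∀ a t, deriv (deriv (F a).Φ) t ≤ C * deriv (F a).Φ t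
  kd : ∀ j, ∃ C, ∀ a t, |iteratedDeriv (j + 2) (F a).Φ t| ≤ C * deriv (deriv (F a).Φ) t

section wt

variable {g : α → MF n} {l : α → V n → ℝ} {A c : ℝ} {F : α → Fu} {χ₀ : ℝ → ℝ} {b₀ b₁ : α → ℝ}
  {S S₁ : ℝ → ℝ}

/-- `N = Φ'(u)`. -/
def Nu (F : α → Fu) (l : α → V n → ℝ) (g : α → MF n) (a : α) (z : VV n) : ℝ :=
  deriv (F a).Φ (uu (F a) (l a) (g a) z)

/-- `K = Φ''(u)`. -/
def Ku (F : α → Fu) (l : α → V n → ℝ) (g : α → MF n) (a : α) (z : VV n) : ℝ :=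
  deriv (deriv (F a).Φ) (uu (F a) (l a) (g a) z)

/-- The stiff part near the diagonal. -/
def Gu (S : ℝ → ℝ) (F : α → Fu) (l : α → V n → ℝ) (g : α → MF n) (a : α) (z : VV n) : ℝ :=
  Real.exp (uu (F a) (l a) (g a) z) * S (r2 (g a) z)

/-- **The slope part.** -/
theorem sp_uu (p : Pc F) (m : Mc F χ₀ b₀ b₁) (h : Lg O U R l g A (k + 1)) :
    Sp U (fun a => uu (F a) (l a) (g a)) (fun a => (F a).Φ) (Nu F l g) (Ku F l g)
      (ww R b₀ b₁ g) k where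
  op := h.oU
  su := sm_uu m h
  sΦ := p.s
  N0 a _ _ := p.n a _
  K0 a _ _ := p.k a _
  w0 a z _ := ww_0 m h a z
  du := s_du m h
  ddu := s_ddu m h
  n1 := ⟨1, fun a z _ => by rw [one_mul, abs_of_nonneg (p.n a _)]; exact le_rfl⟩
  n2 j _ := by
    obtain ⟨C, hC⟩ := p.kd j
    exact ⟨C, fun a z _ => hC a _⟩
  KN := by
    obtain ⟨C, h0, hC⟩ := p.kn
    exact ⟨C, h0, fun a z _ => hC a _⟩

/-- **The near weight off the diagonal: `G` is the stiff part itself.** -/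
theorem wg_far (hS : LS c S S₁) (p : Pc F) (m : Mc F χ₀ b₀ b₁) (h : Lg O U R l g A (k + 1))
    (h0 : ∀ a, ∀ z ∈ U a, c < r2 (g a) z) {δ : α → ℝ} (δ0 : ∀ a, 0 ≤ δ a)
    (δ1 : ∀ a, δ a ≤ 1) (δR : ∃ C, 0 ≤ C ∧ ∀ a, δ a ≤ C * (R a)⁻¹) :
    Wg U (fun a => uu (F a) (l a) (g a)) (fun a => (F a).Φ) (Gu S F l g) (Nu F l g) (Ku F l g)
      (ww R b₀ b₁ g) (Gu S F l g) (fun a _ => δ a) k := by
  have w := wf_uu m h hS.c0.le h0
  refine ⟨sp_uu p m h, fun a => hS.sF w a, ?_, fun a z hz => (hS.F_pos w a hz).le,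
    fun a _ _ => δ0 a, fun a _ _ => δ1 a, ?_⟩
  · exact ((hS.F w).fd h.oU).wcongr fun a z _ => by simp [Gu, Fg]
  · obtain ⟨C, hC, hR⟩ := δR
    refine ⟨C, hC, fun a z _ => (hR a).trans (mul_le_mul_of_nonneg_left ?_ hC)⟩
    exact le_add_of_nonneg_right (m.tw0 a z)

/-- **The near weight near the diagonal: `G = e^u`.** -/
theorem wg_near (sS : ContDiff ℝ ∞ S) (p : Pc F) (m : Mc F χ₀ b₀ b₁)
    (h : Lg O U R l g A (k + 1)) (h1 : ∀ a, ∀ z ∈ U a, r2 (g a) z ≤ c) {δ : α → ℝ}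
    (δ0 : ∀ a, 0 ≤ δ a) (δ1 : ∀ a, δ a ≤ 1) (δR : ∃ C, 0 ≤ C ∧ ∀ a, δ a ≤ C * (R a)⁻¹) :
    Wg U (fun a => uu (F a) (l a) (g a)) (fun a => (F a).Φ) (Gu S F l g) (Nu F l g) (Ku F l g)
      (ww R b₀ b₁ g) (fun a z => Real.exp (uu (F a) (l a) (g a) z)) (fun a _ => δ a) k := by
  have w := wn_uu m h h1
  have h2 : Sf U (fun _ _ => 1) (fun a z => Real.exp (uu (F a) (l a) (g a) z)) (k + 2)
      (Gu S F l g) := ((w.eu).mul w.op (w.phi sS)).wcongr fun a z _ => by simp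
  refine ⟨sp_uu p m h, h2.sm, ?_, fun a z hz => (Real.exp_pos _).le,
    fun a _ _ => δ0 a, fun a _ _ => δ1 a, ?_⟩
  · exact (h2.fd h.oU).wcongr fun a z _ => by simp
  · obtain ⟨C, hC, hR⟩ := δR
    refine ⟨C, hC, fun a z _ => (hR a).trans (mul_le_mul_of_nonneg_left ?_ hC)⟩
    exact le_add_of_nonneg_right (m.tw0 a z)

/-- The weight is `Φ(u) + e^u S(r²)` for `r < rd`, `X = 1`. -/
theorem WW_near {f : Fu} {rd : ℝ} (hF : f.Ok rd) {l : V n → ℝ} {g : MF n} {z : VV n}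
    (hX : f.X (uu f l g z) = 1) (hr : r2 g z < rd ^ 2) :
    WW f l g z = f.Φ (uu f l g z) + Real.exp (uu f l g z) * f.S (r2 g z) := by
  unfold WW
  rw [hX, one_mul, st_in' hF hr]

/-- **All slot quantities of the weight off the diagonal.** -/
theorem b0_far {s₁ s₂ : α → MF n} {δ : α → ℝ} (hS : LS c S S₁) (p : Pc F)
    (m : Mc F χ₀ b₀ b₁) (h : Lg O U R l g A 3) (h0 : ∀ a, ∀ z ∈ U a, c < r2 (g a) z)
    (δ0 : ∀ a, 0 ≤ δ a) (δ1 : ∀ a, δ a ≤ 1) (δR : ∃ C, 0 ≤ C ∧ ∀ a, δ a ≤ C * (R a)⁻¹)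
    (t₁ : Tn O s₁ δ 2) (t₂ : Tn O s₂ δ 2)
    (hW : ∀ a, ∀ z ∈ U a, WW (F a) (l a) (g a) z =
      (F a).Φ (uu (F a) (l a) (g a) z) + Gu S F l g a z) :
    ∀ᶠ C : ℝ in atTop, ∀ a, ∀ z ∈ U a, B0 (sx (s₁ a)) (sy (s₂ a)) (WW (F a) (l a) (g a)) z C
      (Nu F l g a z + Gu S F l g a z) (kp (Nu F l g) (Ku F l g) (ww R b₀ b₁ g) (Gu S F l g) a z)
      (δ a) := by
  filter_upwards [(wg_far (k := 2) hS p m h h0 δ0 δ1 δR).b0 (ft_x h.oO h.oU h.hx δ0 t₁)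
    (ft_y h.oO h.oU h.hy δ0 t₂)] with C hC a z hz
  exact (hC a z hz).congr (h.oU a) (hW a) hz

/-- **All slot quantities of the weight near the diagonal.** -/
theorem b0_near {s₁ s₂ : α → MF n} {δ : α → ℝ} (sS : ContDiff ℝ ∞ S) (p : Pc F)
    (m : Mc F χ₀ b₀ b₁) (h : Lg O U R l g A 3) (h0 : ∀ a, ∀ z ∈ U a, r2 (g a) z ≤ c)
    (δ0 : ∀ a, 0 ≤ δ a) (δ1 : ∀ a, δ a ≤ 1) (δR : ∃ C, 0 ≤ C ∧ ∀ a, δ a ≤ C * (R a)⁻¹)
    (t₁ : Tn O s₁ δ 2) (t₂ : Tn O s₂ δ 2)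
    (hW : ∀ a, ∀ z ∈ U a, WW (F a) (l a) (g a) z =
      (F a).Φ (uu (F a) (l a) (g a) z) + Gu S F l g a z) :
    ∀ᶠ C : ℝ in atTop, ∀ a, ∀ z ∈ U a, B0 (sx (s₁ a)) (sy (s₂ a)) (WW (F a) (l a) (g a)) z C
      (Nu F l g a z + Real.exp (uu (F a) (l a) (g a) z))
      (kp (Nu F l g) (Ku F l g) (ww R b₀ b₁ g)
        (fun a z => Real.exp (uu (F a) (l a) (g a) z)) a z) (δ a) := by
  filter_upwards [(wg_near (k := 2) sS p m h h0 δ0 δ1 δR).b0 (ft_x h.oO h.oU h.hx δ0 t₁)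
    (ft_y h.oO h.oU h.hy δ0 t₂)] with C hC a z hz
  exact (hC a z hz).congr (h.oU a) (hW a) hz

end wt

end Vale.Agent.P088.R2.H644.Ep
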