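import Vale.Agent.P088.R2.H464.EP.SymU
import Vale.Agent.P088.R2.H644.W.Prof3
import Vale.Agent.P088.R2.H31.EP.Wgt

/-!
# P088: the exponent `u = l(x) + l(y) + 2 χ(r²) μ(l(p))` as a family of symbols

`T = 2 χ(r²) μ(l(p))` vanishes for `r² ≥ 4`; `T = O(b₁)`, `D T = O(b₀)` for `r ≤ 1` and
`O(b₁)` for `1 ≤ r ≤ 2` (all derivatives); `D u = O(1)` at the scale `r`, `D² u = O(w)`,
`w = 1/R + b₀ 1_(r ≤ 2) + b₁ 1_(1 ≤ r ≤ 2)`.
-/

open Set Filter
open scoped ContDiff Topology Matrix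

noncomputable section

namespace Vale.Agent.P088.R2.H644.Sy

variable {α E F : Type*} [NormedAddCommGroup E] [NormedSpace ℝ E] [NormedAddCommGroup F]
  [NormedSpace ℝ F]

/-- Extension by zero. -/
theorem Sf.ext0 {U V : α → Set E} {ρ g : α → E → ℝ} {k : ℕ} {f : α → E → F}
    (h : Sf V ρ g k f) (hs : ∀ a, ContDiffOn ℝ ∞ (f a) (U a))
    (hρ : ∀ a, ∀ z ∈ U a, 0 ≤ ρ a z) (hg : ∀ a, ∀ z ∈ U a, 0 ≤ g a z)
    (h0 : ∀ a, ∀ z ∈ U a, z ∉ V a → f a =ᶠ[𝓝 z] fun _ => 0) : Sf U ρ g k f where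
  sm := hs
  bd j hj := by
    obtain ⟨C, hC⟩ := h.bd j hj
    refine ⟨|C|, fun a z hz => ?_⟩
    have h1 : 0 ≤ g a z * (ρ a z)⁻¹ ^ j :=
      mul_nonneg (hg a z hz) (pow_nonneg (inv_nonneg.2 (hρ a z hz)) j)
    by_cases h2 : z ∈ V a
    · exact (hC a z h2).trans (mul_le_mul_of_nonneg_right (le_abs_self C) h1)
    · rw [((h0 a z hz h2).iteratedFDeriv ℝ j).eq_of_nhds]
      have h3 : iteratedFDeriv ℝ j (fun _ : E => (0 : F)) z = 0 := by
        rw [show (fun _ : E => (0 : F)) = 0 from rfl, iteratedFDeriv_zero]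
        rfl
      rw [h3, norm_zero]
      exact mul_nonneg (abs_nonneg C) h1

/-- The weight vanishes where the function vanishes. -/
theorem Sf.supp {U : α → Set E} {ρ g : α → E → ℝ} {k : ℕ} {f : α → E → F}
    (h : Sf U ρ g k f) (p : α → E → Prop) [∀ a z, Decidable (p a z)]
    (h0 : ∀ a, ∀ z ∈ U a, ¬ p a z → f a =ᶠ[𝓝 z] fun _ => 0) :
    Sf U ρ (fun a z => if p a z then g a z else 0) k f where
  sm := h.sm
  bd j hj := by
    obtain ⟨C, hC⟩ := h.bd j hj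
    refine ⟨C, fun a z hz => ?_⟩
    by_cases h2 : p a z
    · simp only [if_pos h2]
      exact hC a z hz
    · rw [((h0 a z hz h2).iteratedFDeriv ℝ j).eq_of_nhds]
      have h3 : iteratedFDeriv ℝ j (fun _ : E => (0 : F)) z = 0 := by
        rw [show (fun _ : E => (0 : F)) = 0 from rfl, iteratedFDeriv_zero]
        rfl
      simp only [if_neg h2, h3, norm_zero]
      simp

/-- Smaller scale, only on the support of the weight. -/
theorem Sf.mono_ρ0 {U : α → Set E} {ρ ρ' g : α → E → ℝ} {k : ℕ} {f : α → E → F}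
    (h : Sf U ρ g k f) (hρ : ∀ a, ∀ z ∈ U a, 0 < ρ a z) (hρ' : ∀ a, ∀ z ∈ U a, 0 < ρ' a z)
    (hg : ∀ a, ∀ z ∈ U a, 0 ≤ g a z) {A : ℝ}
    (hA : ∀ a, ∀ z ∈ U a, g a z = 0 ∨ ρ' a z ≤ A * ρ a z) : Sf U ρ' g k f where
  sm := h.sm
  bd j hj := by
    obtain ⟨C, hC⟩ := h.bd j hj
    refine ⟨|C| * |A| ^ j, fun a z hz => (hC a z hz).trans ?_⟩
    have h1 : 0 ≤ (ρ a z)⁻¹ ^ j := pow_nonneg (inv_nonneg.2 (hρ a z hz).le) j
    rcases hA a z hz with h2 | h2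
    · rw [h2]; simp
    · have h2' : 0 ≤ g a z * (ρ a z)⁻¹ ^ j := mul_nonneg (hg a z hz) h1
      have h3 : (ρ a z)⁻¹ ≤ |A| * (ρ' a z)⁻¹ := by
        rw [← div_eq_mul_inv, le_div_iff₀ (hρ' a z hz), inv_mul_le_iff₀ (hρ a z hz), mul_comm]
        exact h2.trans (mul_le_mul_of_nonneg_right (le_abs_self A) (hρ a z hz).le)
      have h4 : (ρ a z)⁻¹ ^ j ≤ |A| ^ j * (ρ' a z)⁻¹ ^ j := by
        rw [← mul_pow]
        exact pow_le_pow_left₀ (inv_nonneg.2 (hρ a z hz).le) h3 j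
      calc C * (g a z * (ρ a z)⁻¹ ^ j) ≤ |C| * (g a z * (ρ a z)⁻¹ ^ j) :=
            mul_le_mul_of_nonneg_right (le_abs_self C) h2'
        _ ≤ |C| * (g a z * (|A| ^ j * (ρ' a z)⁻¹ ^ j)) :=
            mul_le_mul_of_nonneg_left (mul_le_mul_of_nonneg_left h4 (hg a z hz)) (abs_nonneg C)
        _ = |C| * |A| ^ j * (g a z * (ρ' a z)⁻¹ ^ j) := by ring

/-- Smooth functions of a bounded symbol. -/
theorem Sf.sfun {U : α → Set E} {k : ℕ} {f : α → E → ℝ} (hU : ∀ a, IsOpen (U a))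
    (hf : Sf U (fun _ _ => 1) (fun _ _ => 1) k f) {c d : ℝ}
    (hc : ∀ a, ∀ z ∈ U a, f a z ∈ Icc c d) {H : ℝ → ℝ} (hH : ContDiff ℝ ∞ H) :
    Sf U (fun _ _ => 1) (fun _ _ => 1) k fun a z => H (f a z) := by
  refine Sf.comp1 (I := fun _ => univ) hU (fun _ _ _ => one_ne_zero) (fun _ => isOpen_univ)
    (fun _ _ _ => mem_univ _) k (fun _ => H) (fun _ _ => 1) (fun _ => hH.contDiffOn)
    (fun j _ => ?_) hf
  have hcont : Continuous (iteratedDeriv j H) :=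
    hH.continuous_iteratedDeriv j (by exact_mod_cast le_top)
  obtain ⟨C, hC⟩ := (isCompact_Icc (a := c) (b := d)).exists_bound_of_continuousOn
    hcont.continuousOn
  exact ⟨C, fun a z hz => by simpa using hC _ (hc a z hz)⟩

end Vale.Agent.P088.R2.H644.Sy

namespace Vale.Agent.P088.R2.H644.Ep

open Vale.Agent.P088.LR Vale.Agent.P088.HY Vale.Agent.P088.R2.H961.GW Vale.Agent.P088.R2.H644.Ch
open Vale.Agent.P088.R2.H644.Sy Vale.Agent.P088.R2.H464.Cu Vale.Agent.P088.R2.H31.EP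

variable {n k : ℕ} {α : Type*} {O : α → Set (V n)} {U W : α → Set (VV n)} {R : α → ℝ}
  {g : α → MF n} {l : α → V n → ℝ} {A c : ℝ}

/-- Families of levels and metrics of size one at the scale `R`. -/
structure Lg (O : α → Set (V n)) (U : α → Set (VV n)) (R : α → ℝ) (l : α → V n → ℝ)
    (g : α → MF n) (A : ℝ) (k : ℕ) : Prop where
  oO : ∀ a, IsOpen (O a)
  oU : ∀ a, IsOpen (U a)
  hx : ∀ a, ∀ z ∈ U a, z.1 ∈ O a
  hy : ∀ a, ∀ z ∈ U a, z.2 ∈ O a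
  hm : ∀ a, ∀ z ∈ U a, mid z ∈ O a
  R1 : ∀ a, 1 ≤ R a
  sl : ∀ a, ContDiffOn ℝ ∞ (l a) (O a)
  dl : Sf O (fun a _ => R a) (fun _ _ => 1) k (fun a => fderiv ℝ (l a))
  sg : ∀ i j, Sf O (fun a _ => R a) (fun _ _ => 1) (k + 1) (fun a x => g a x i j)
  nr : ∀ a, ∃ ε δ₁ δ₂ : ℝ, n * ε ≤ 1 / 2 ∧ Nr (O a) ε δ₁ δ₂ (g a)
  rR : ∀ a, ∀ z ∈ U a, √(r2 (g a) z) ≤ A * R a

namespace Lg

theorem R0 (h : Lg O U R l g A k) (a : α) : 0 < R a := one_pos.trans_le (h.R1 a)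

theorem mono_k {m : ℕ} (h : Lg O U R l g A k) (hm : m ≤ k) : Lg O U R l g A m :=
  ⟨h.oO, h.oU, h.hx, h.hy, h.hm, h.R1, h.sl, h.dl.mono_k hm,
    fun i j => (h.sg i j).mono_k (Nat.succ_le_succ hm), h.nr, h.rR⟩

theorem sub (h : Lg O U R l g A k) (oW : ∀ a, IsOpen (W a)) (hW : ∀ a, W a ⊆ U a) :
    Lg O W R l g A k :=
  ⟨h.oO, oW, fun a z hz => h.hx a z (hW a hz), fun a z hz => h.hy a z (hW a hz),
    fun a z hz => h.hm a z (hW a hz), h.R1, h.sl, h.dl, h.sg, h.nr,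
    fun a z hz => h.rR a z (hW a hz)⟩

theorem sr (h : Lg O U R l g A k) (a : α) : ContDiffOn ℝ ∞ (r2 (g a)) (U a) := by
  obtain ⟨ε, δ₁, δ₂, -, hN⟩ := h.nr a
  exact contDiffOn_const.mul ((sm_rq hN.sm).mono fun z hz => h.hm a z hz)

theorem r0 (h : Lg O U R l g A k) (a : α) {z : VV n} (hz : z ∈ U a) : 0 ≤ rq (g a) z := by
  obtain ⟨ε, δ₁, δ₂, hε, hN⟩ := h.nr a
  exact (mul_nonneg (by norm_num) (Finset.sum_nonneg fun i _ => mul_self_nonneg _)).trans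
    (rq_bd hN hε (h.hm a z hz)).1

theorem r20 (h : Lg O U R l g A k) (a : α) {z : VV n} (hz : z ∈ U a) : 0 ≤ r2 (g a) z :=
  mul_nonneg zero_le_two (h.r0 a hz)

theorem dif (h : Lg O U R l g A k) (a : α) {z : VV n} (hz : z ∈ U a) (i : Fin n) :
    |H464.Cu.dif z i| ≤ 3 * √(r2 (g a) z) := by
  obtain ⟨ε, δ₁, δ₂, hε, hN⟩ := h.nr a
  refine (dif_le hN hε (h.hm a z hz) i).trans (mul_le_mul_of_nonneg_left ?_ (by norm_num))
  refine Real.sqrt_le_sqrt ?_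
  have := h.r0 a hz
  unfold r2
  linarith

/-- **`r²` off the diagonal.** -/
theorem s_r2 (h : Lg O U R l g A k) (hc : 0 ≤ c) (h0 : ∀ a, ∀ z ∈ U a, c < r2 (g a) z) :
    Sf U (fun a z => √(r2 (g a) z)) (fun a => r2 (g a)) (k + 1) (fun a => r2 (g a)) := by
  have h1 : Sf U (fun a z => √(r2 (g a) z)) (fun a z => √(r2 (g a) z) * √(r2 (g a) z)) (k + 1)
      (fun a => rq (g a)) := sf_rq_r h.oO h.oU h.hm h.R0 h.sg
    (fun a z hz => Real.sqrt_pos.2 (hc.trans_lt (h0 a z hz))) (A := max 3 A)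
    (fun a z hz i => (h.dif a hz i).trans
      (mul_le_mul_of_nonneg_right (le_max_left _ _) (Real.sqrt_nonneg _)))
    (fun a z hz => (h.rR a z hz).trans
      (mul_le_mul_of_nonneg_right (le_max_right _ _) (h.R0 a).le))
  exact (h1.csmul h.oU 2).wcongr fun a z hz => (Real.mul_self_sqrt (h.r20 a hz)).symm

/-- **`r²` at the scale one.** -/
theorem s_r2n (h : Lg O U R l g A k) (h1 : ∀ a, ∀ z ∈ U a, r2 (g a) z ≤ c) :
    Sf U (fun _ _ => 1) (fun _ _ => 1) (k + 1) (fun a => r2 (g a)) := by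
  have h1 : Sf U (fun _ _ => 1) (fun _ _ => 1 * 1) (k + 1) (fun a => rq (g a)) :=
    sf_rq_r h.oO h.oU h.hm h.R0 h.sg (r := fun _ _ => 1) (fun _ _ _ => one_pos)
    (A := max (3 * √c) 1)
    (fun a z hz i => (h.dif a hz i).trans (by
      rw [mul_one]
      exact (mul_le_mul_of_nonneg_left (Real.sqrt_le_sqrt (h1 a z hz)) (by norm_num)).trans
        (le_max_left _ _)))
    (fun a z _ => by
      have := h.R1 a
      nlinarith [le_max_right (3 * √c) 1])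
  exact (h1.csmul h.oU 2).wcongr fun a z _ => by simp

/-- `D l(p)`. -/
theorem s_lm (h : Lg O U R l g A k) : Sf U (fun a _ => R a) (fun _ _ => 1) k
    (fun a => fderiv ℝ fun z => l a (mid z)) := by
  have h1 := (Sf.compL (U := U) h.oO h.dl (midL n) h.hm
    (fun a _ _ => (h.R0 a).le) (fun _ _ _ => zero_le_one)).clm h.oU
    ((ContinuousLinearMap.compL ℝ (VV n) (V n) ℝ).flip (midL n))
  refine h1.congr h.oU fun a z hz => ?_
  have d1 := (df_of (h.oO a) (h.sl a) (h.hm a z hz)).hasFDerivAt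
  have f1 : HasFDerivAt (fun z => l a (mid z)) ((fderiv ℝ (l a) (mid z)).comp (midL n)) z :=
    HasFDerivAt.comp z d1 (midL n).hasFDerivAt
  exact f1.fderiv

theorem sm_lm (h : Lg O U R l g A k) (a : α) : ContDiffOn ℝ ∞ (fun z => l a (mid z)) (U a) :=
  (h.sl a).comp (midL n).contDiff.contDiffOn fun z hz => h.hm a z hz

/-- `D l(p)` at a scale `r ≤ A R`. -/
theorem s_lm' (h : Lg O U R l g A k) {r : α → VV n → ℝ} (hr : ∀ a, ∀ z ∈ U a, 0 < r a z) {B : ℝ}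
    (hB : ∀ a, ∀ z ∈ U a, r a z ≤ B * R a) :
    Sf U r (fun _ _ => 1) k (fun a => fderiv ℝ fun z => l a (mid z)) :=
  h.s_lm.mono_ρ (fun a _ _ => h.R0 a) hr (fun _ _ _ => zero_le_one) hB

/-- `D (l(x) + l(y))`. -/
theorem s_uf (h : Lg O U R l g A k) : Sf U (fun a _ => R a) (fun _ _ => 1) k
    (fun a => fderiv ℝ (uf (l a))) := sf_duf h.oO h.oU h.hx h.hy h.R0 h.sl h.dl

theorem sm_uf (h : Lg O U R l g A k) (a : α) : ContDiffOn ℝ ∞ (uf (l a)) (U a) :=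
  (H464.Cu.sm_uf (h.sl a)).mono fun z hz => ⟨h.hx a z hz, h.hy a z hz⟩

end Lg

/-! ## The correction of the level -/

/-- The correction `2 χ(r²) μ(l(p))`. -/
def Tc (F : Fu) (l : V n → ℝ) (g : MF n) (z : VV n) : ℝ :=
  2 * (F.χ (r2 g z) * F.μ (l (mid z)))

theorem uu_eq (F : Fu) (l : V n → ℝ) (g : MF n) (z : VV n) :
    uu F l g z = uf l z + Tc F l g z := rfl

/-- The corrections of a family: one cut-off `χ₀`, `μ = O(b₁)`, `μ^(j) = O(b₀)`, `j ≥ 1`. -/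
structure Mc (F : α → Fu) (χ₀ : ℝ → ℝ) (b₀ b₁ : α → ℝ) : Prop where
  e : ∀ a, (F a).χ = χ₀
  s : ContDiff ℝ ∞ χ₀
  c1 : ∀ t ≤ 1, χ₀ t = 1
  c4 : ∀ t, 4 ≤ t → χ₀ t = 0
  sμ : ∀ a, ContDiff ℝ ∞ (F a).μ
  b0 : ∀ a, 0 ≤ b₀ a
  b01 : ∀ a, b₀ a ≤ b₁ a
  b1 : ∀ a, b₁ a ≤ 1
  m0 : ∃ C, ∀ a t, |(F a).μ t| ≤ C * b₁ a
  mj : ∀ j, ∃ C, ∀ a t, |iteratedDeriv (j + 1) (F a).μ t| ≤ C * b₀ a

section corr

variable {F : α → Fu} {χ₀ : ℝ → ℝ} {b₀ b₁ : α → ℝ}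

/-- The region `r² < 5`. -/
def Nb (U : α → Set (VV n)) (g : α → MF n) (a : α) : Set (VV n) := {z ∈ U a | r2 (g a) z < 5}

/-- The size of the derivatives of the correction. -/
def tw (b₀ b₁ : α → ℝ) (g : α → MF n) (a : α) (z : VV n) : ℝ :=
  (if r2 (g a) z ≤ 4 then b₀ a else 0) +
    (if 1 ≤ r2 (g a) z ∧ r2 (g a) z ≤ 4 then b₁ a else 0)

theorem Mc.b10 (m : Mc F χ₀ b₀ b₁) (a : α) : 0 ≤ b₁ a := (m.b0 a).trans (m.b01 a)

theorem Mc.tw0 (m : Mc F χ₀ b₀ b₁) (a : α) (z : VV n) : 0 ≤ tw b₀ b₁ g a z := by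
  have h1 := m.b0 a
  have h2 := m.b10 a
  unfold tw
  split_ifs <;> linarith

theorem Mc.tw2 (m : Mc F χ₀ b₀ b₁) (a : α) (z : VV n) : tw b₀ b₁ g a z ≤ 2 := by
  have h1 := m.b0 a
  have h2 := m.b10 a
  have h3 := m.b01 a
  have h4 := m.b1 a
  unfold tw
  split_ifs <;> linarith

theorem tw_far {a : α} {z : VV n} (h : 4 < r2 (g a) z) : tw b₀ b₁ g a z = 0 := by
  unfold tw
  rw [if_neg (not_le.2 h), if_neg fun h1 => absurd h1.2 (not_le.2 h), add_zero]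

theorem Lg.nb_open (h : Lg O U R l g A k) (a : α) : IsOpen (Nb U g a) :=
  (h.sr a).continuousOn.isOpen_inter_preimage (h.oU a) isOpen_Iio

theorem Lg.nb (h : Lg O U R l g A k) : Lg O (Nb U g) R l g A k :=
  h.sub h.nb_open fun _ _ hz => hz.1

/-- Locally, `χ'(r²) = 0` or `μ` is small. -/
theorem Lg.ev_gt (h : Lg O U R l g A k) (a : α) {z : VV n} (hz : z ∈ U a) {t : ℝ}
    (ht : t < r2 (g a) z) : ∀ᶠ w in 𝓝 z, t < r2 (g a) w := by
  have h1 : ContinuousAt (r2 (g a)) z :=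
    ((h.sr a z hz).contDiffAt ((h.oU a).mem_nhds hz)).continuousAt
  exact h1.eventually (isOpen_Ioi.mem_nhds ht)

theorem Lg.ev_lt (h : Lg O U R l g A k) (a : α) {z : VV n} (hz : z ∈ U a) {t : ℝ}
    (ht : r2 (g a) z < t) : ∀ᶠ w in 𝓝 z, r2 (g a) w < t := by
  have h1 : ContinuousAt (r2 (g a)) z :=
    ((h.sr a z hz).contDiffAt ((h.oU a).mem_nhds hz)).continuousAt
  exact h1.eventually (isOpen_Iio.mem_nhds ht)

theorem Mc.sT (m : Mc F χ₀ b₀ b₁) (h : Lg O U R l g A k) (a : α) :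
    ContDiffOn ℝ ∞ (Tc (F a) (l a) (g a)) (U a) := by
  have h1 : ContDiffOn ℝ ∞ (fun z => (F a).χ (r2 (g a) z)) (U a) := by
    rw [m.e a]
    exact m.s.comp_contDiffOn (h.sr a)
  exact contDiffOn_const.mul (h1.mul ((m.sμ a).comp_contDiffOn (h.sm_lm a)))

theorem Mc.T_far (m : Mc F χ₀ b₀ b₁) (h : Lg O U R l g A k) (a : α) {z : VV n} (hz : z ∈ U a)
    (h4 : 4 < r2 (g a) z) : Tc (F a) (l a) (g a) =ᶠ[𝓝 z] fun _ => 0 := by
  filter_upwards [h.ev_gt a hz h4] with w hw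
  unfold Tc
  rw [m.e a, m.c4 _ hw.le, zero_mul, mul_zero]

/-- `χ(r²)` near the diagonal. -/
theorem Mc.s_chi (m : Mc F χ₀ b₀ b₁) (h : Lg O U R l g A k) :
    Sf (Nb U g) (fun _ _ => 1) (fun _ _ => 1) (k + 1) fun a z => (F a).χ (r2 (g a) z) := by
  have h1 := Sf.sfun (c := 0) (d := 5) h.nb_open
    (h.nb.s_r2n (c := 5) fun a z hz => hz.2.le)
    (fun a z hz => ⟨h.r20 a hz.1, hz.2.le⟩) m.s
  exact h1.congr h.nb_open fun a z _ => by rw [m.e a]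

/-- `D l(p)` near the diagonal. -/
theorem Lg.s_lmn (h : Lg O U R l g A k) : Sf U (fun _ _ => 1) (fun _ _ => 1) k
    (fun a => fderiv ℝ fun z => l a (mid z)) :=
  h.s_lm' (fun _ _ _ => one_pos) (B := 1) fun a _ _ => by
    have := h.R1 a
    linarith

/-- `μ(l(p))`. -/
theorem Mc.s_mu (m : Mc F χ₀ b₀ b₁) (h : Lg O U R l g A k) :
    Sf U (fun _ _ => 1) (fun a _ => b₁ a) (k + 1) fun a z => (F a).μ (l a (mid z)) := by
  refine Sf.compD (ρ := fun _ _ => 1) (g := fun _ _ => 1) h.oU (fun _ _ _ => one_ne_zero)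
    h.sm_lm k (fun a => (F a).μ) (fun a _ => b₁ a) m.sμ (fun j hj => ?_)
    (h.s_lmn.wcongr fun _ _ _ => by simp)
  rcases j with _ | j
  · obtain ⟨C, hC⟩ := m.m0
    exact ⟨C, fun a z _ => by simpa using hC a _⟩
  · obtain ⟨C, hC⟩ := m.mj j
    refine ⟨|C|, fun a z _ => (hC a _).trans ?_⟩
    have h1 := m.b0 a
    have h2 := m.b01 a
    calc C * b₀ a ≤ |C| * b₀ a := mul_le_mul_of_nonneg_right (le_abs_self C) h1
      _ ≤ |C| * b₁ a := mul_le_mul_of_nonneg_left h2 (abs_nonneg C)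
      _ = _ := by simp

/-- `μ'(l(p))`. -/
theorem Mc.s_mu' (m : Mc F χ₀ b₀ b₁) (h : Lg O U R l g A k) :
    Sf U (fun _ _ => 1) (fun a _ => b₀ a) (k + 1) fun a z => deriv (F a).μ (l a (mid z)) := by
  refine Sf.compD (ρ := fun _ _ => 1) (g := fun _ _ => 1) h.oU (fun _ _ _ => one_ne_zero)
    h.sm_lm k (fun a => deriv (F a).μ) (fun a _ => b₀ a)
    (fun a => (contDiff_infty_iff_deriv.1 (m.sμ a)).2) (fun j hj => ?_)
    (h.s_lmn.wcongr fun _ _ _ => by simp)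
  obtain ⟨C, hC⟩ := m.mj j
  refine ⟨C, fun a z _ => ?_⟩
  rw [← iteratedDeriv_succ']
  simpa using hC a _

/-- **The correction.** -/
theorem Mc.s_T (m : Mc F χ₀ b₀ b₁) (h : Lg O U R l g A k) :
    Sf U (fun _ _ => 1) (fun a z => if r2 (g a) z ≤ 4 then b₁ a else 0) (k + 1)
      (fun a => Tc (F a) (l a) (g a)) := by
  have h1 := ((m.s_chi h).mul h.nb_open (m.s_mu h.nb)).csmul h.nb_open 2
  have h2 : Sf (Nb U g) (fun _ _ => 1) (fun a _ => b₁ a) (k + 1)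
      (fun a => Tc (F a) (l a) (g a)) := h1.wcongr fun a z _ => by simp
  refine (h2.ext0 (U := U) (m.sT h) (fun _ _ _ => zero_le_one) (fun a _ _ => m.b10 a)
    fun a z hz hn => ?_).supp (fun a z => r2 (g a) z ≤ 4) fun a z hz hn => ?_
  · refine m.T_far h a hz (lt_of_lt_of_le (by norm_num) (not_lt.1 fun h5 => hn ⟨hz, h5⟩))
  · exact m.T_far h a hz (not_le.1 hn)

/-- **The derivative of the correction.** -/
theorem Mc.s_dT (m : Mc F χ₀ b₀ b₁) (h : Lg O U R l g A k) :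
    Sf U (fun _ _ => 1) (tw b₀ b₁ g) k (fun a => fderiv ℝ (Tc (F a) (l a) (g a))) := by
  have hV := h.nb_open
  have sχ : ContDiff ℝ ∞ (deriv χ₀) := (contDiff_infty_iff_deriv.1 m.s).2
  have i4 : ∀ t, 4 < t → deriv χ₀ t = 0 := fun t ht => by
    have e : χ₀ =ᶠ[𝓝 t] fun _ => 0 := by
      filter_upwards [isOpen_Ioi.mem_nhds ht] with s hs using m.c4 s (le_of_lt hs)
    rw [e.deriv_eq, deriv_const]
  have i1 : ∀ t, t < 1 → deriv χ₀ t = 0 := fun t ht => by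
    have e : χ₀ =ᶠ[𝓝 t] fun _ => 1 := by
      filter_upwards [isOpen_Iio.mem_nhds ht] with s hs using m.c1 s (le_of_lt hs)
    rw [e.deriv_eq, deriv_const]
  -- the two parts
  set P : α → VV n → VV n →L[ℝ] ℝ := fun a z =>
    (2 * (deriv χ₀ (r2 (g a) z) * (F a).μ (l a (mid z)))) • fderiv ℝ (r2 (g a)) z with hP
  set Q : α → VV n → VV n →L[ℝ] ℝ := fun a z =>
    (2 * (χ₀ (r2 (g a) z) * deriv (F a).μ (l a (mid z)))) • fderiv ℝ (fun z => l a (mid z)) z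
    with hQ
  have e : ∀ a, ∀ z ∈ U a, fderiv ℝ (Tc (F a) (l a) (g a)) z = Q a z + P a z := by
    intro a z hz
    have d1 : DifferentiableAt ℝ (r2 (g a)) z :=
      ((h.sr a z hz).contDiffAt ((h.oU a).mem_nhds hz)).differentiableAt (by simp)
    have d2 : DifferentiableAt ℝ (fun z => l a (mid z)) z :=
      ((h.sm_lm a z hz).contDiffAt ((h.oU a).mem_nhds hz)).differentiableAt (by simp)
    have d3 : HasDerivAt χ₀ (deriv χ₀ (r2 (g a) z)) (r2 (g a) z) :=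
      (m.s.contDiffAt.differentiableAt (by simp)).hasDerivAt
    have d4 : HasDerivAt (F a).μ (deriv (F a).μ (l a (mid z))) (l a (mid z)) :=
      ((m.sμ a).contDiffAt.differentiableAt (by simp)).hasDerivAt
    have e1 : HasFDerivAt (fun z => χ₀ (r2 (g a) z))
        (deriv χ₀ (r2 (g a) z) • fderiv ℝ (r2 (g a)) z) z :=
      d3.comp_hasFDerivAt z d1.hasFDerivAt
    have e2 : HasFDerivAt (fun z => (F a).μ (l a (mid z)))
        (deriv (F a).μ (l a (mid z)) • fderiv ℝ (fun z => l a (mid z)) z) z :=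
      d4.comp_hasFDerivAt z d2.hasFDerivAt
    have e3 := (e1.mul e2).const_mul 2
    have e4 : Tc (F a) (l a) (g a) =
        fun z => 2 * (χ₀ (r2 (g a) z) * (F a).μ (l a (mid z))) := by
      unfold Tc
      rw [m.e a]
    rw [e4]
    refine e3.fderiv.trans ?_
    refine ContinuousLinearMap.ext fun v => ?_
    simp only [hP, hQ, _root_.add_apply, _root_.smul_apply, smul_eq_mul]
    ring
  have sr : ∀ a, ContDiffOn ℝ ∞ (fderiv ℝ (r2 (g a))) (U a) := fun a =>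
    (h.sr a).fderiv_of_isOpen (h.oU a) (by norm_num)
  have sm : ∀ a, ContDiffOn ℝ ∞ (fderiv ℝ fun z => l a (mid z)) (U a) := fun a =>
    (h.sm_lm a).fderiv_of_isOpen (h.oU a) (by norm_num)
  have smμ : ∀ a, ContDiff ℝ ∞ (deriv (F a).μ) := fun a =>
    (contDiff_infty_iff_deriv.1 (m.sμ a)).2
  have hPs : ∀ a, ContDiffOn ℝ ∞ (P a) (U a) := fun a =>
    (contDiffOn_const.mul ((sχ.comp_contDiffOn (h.sr a)).mul
      ((m.sμ a).comp_contDiffOn (h.sm_lm a)))).smul (sr a)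
  have hQs : ∀ a, ContDiffOn ℝ ∞ (Q a) (U a) := fun a =>
    (contDiffOn_const.mul ((m.s.comp_contDiffOn (h.sr a)).mul
      ((smμ a).comp_contDiffOn (h.sm_lm a)))).smul (sm a)
  have hr := h.nb.s_r2n (c := 5) fun a z hz => hz.2.le
  -- `P`
  have p1 : Sf (Nb U g) (fun _ _ => 1) (fun a _ => b₁ a) k P := by
    have q1 := Sf.sfun (c := 0) (d := 5) hV (hr.mono_k (Nat.le_succ k))
      (fun a z hz => ⟨h.r20 a hz.1, hz.2.le⟩) sχ
    have q2 := ((q1.mul hV ((m.s_mu h.nb).mono_k (Nat.le_succ k))).csmul hV 2).smul hV (hr.fd hV)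
    exact q2.wcongr fun a z _ => by simp
  have p2 : Sf U (fun _ _ => 1)
      (fun a z => if 1 ≤ r2 (g a) z ∧ r2 (g a) z ≤ 4 then b₁ a else 0) k P := by
    have z4 : ∀ a, ∀ z ∈ U a, 4 < r2 (g a) z → P a =ᶠ[𝓝 z] fun _ => 0 := by
      intro a z hz h4
      filter_upwards [h.ev_gt a hz h4] with w hw
      simp only [hP, i4 _ hw, zero_mul, mul_zero, zero_smul]
    have z1 : ∀ a, ∀ z ∈ U a, r2 (g a) z < 1 → P a =ᶠ[𝓝 z] fun _ => 0 := by
      intro a z hz h4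
      filter_upwards [h.ev_lt a hz h4] with w hw
      simp only [hP, i1 _ hw, zero_mul, mul_zero, zero_smul]
    refine (p1.ext0 (U := U) hPs (fun _ _ _ => zero_le_one) (fun a _ _ => m.b10 a)
      fun a z hz hn => ?_).supp (fun a z => 1 ≤ r2 (g a) z ∧ r2 (g a) z ≤ 4)
        fun a z hz hn => ?_
    · exact z4 a z hz (lt_of_lt_of_le (by norm_num) (not_lt.1 fun h5 => hn ⟨hz, h5⟩))
    · rcases lt_or_ge (r2 (g a) z) 1 with h1 | h1
      · exact z1 a z hz h1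
      · exact z4 a z hz (not_le.1 fun h4 => hn ⟨h1, h4⟩)
  -- `Q`
  have q1 : Sf (Nb U g) (fun _ _ => 1) (fun a _ => b₀ a) k Q := by
    have q1 := Sf.sfun (c := 0) (d := 5) hV (hr.mono_k (Nat.le_succ k))
      (fun a z hz => ⟨h.r20 a hz.1, hz.2.le⟩) m.s
    have q2 := ((q1.mul hV ((m.s_mu' h.nb).mono_k (Nat.le_succ k))).csmul hV 2).smul hV
      h.nb.s_lmn
    exact q2.wcongr fun a z _ => by simp
  have q2 : Sf U (fun _ _ => 1) (fun a z => if r2 (g a) z ≤ 4 then b₀ a else 0) k Q := by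
    have z4 : ∀ a, ∀ z ∈ U a, 4 < r2 (g a) z → Q a =ᶠ[𝓝 z] fun _ => 0 := by
      intro a z hz h4
      filter_upwards [h.ev_gt a hz h4] with w hw
      simp only [hQ, m.c4 _ hw.le, zero_mul, mul_zero, zero_smul]
    refine (q1.ext0 (U := U) hQs (fun _ _ _ => zero_le_one) (fun a _ _ => m.b0 a)
      fun a z hz hn => ?_).supp (fun a z => r2 (g a) z ≤ 4) fun a z hz hn => ?_
    · exact z4 a z hz (lt_of_lt_of_le (by norm_num) (not_lt.1 fun h5 => hn ⟨hz, h5⟩))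
    · exact z4 a z hz (not_le.1 hn)
  have key := Sf.add' h.oU (fun _ _ _ => one_pos) (fun a z _ => by
    have := m.b0 a
    split_ifs <;> linarith) (fun a z _ => by
    have := m.b10 a
    split_ifs <;> linarith) q2 p2
  exact key.congr h.oU e

/-! ## The exponent -/

/-- `w = 1/R + b₀ 1_(r ≤ 2) + b₁ 1_(1 ≤ r ≤ 2)`. -/
def ww (R b₀ b₁ : α → ℝ) (g : α → MF n) (a : α) (z : VV n) : ℝ := (R a)⁻¹ + tw b₀ b₁ g a z

theorem ww_0 (m : Mc F χ₀ b₀ b₁) (h : Lg O U R l g A k) (a : α) (z : VV n) :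
    0 ≤ ww R b₀ b₁ g a z := add_nonneg (inv_nonneg.2 (h.R0 a).le) (m.tw0 a z)

theorem ww_3 (m : Mc F χ₀ b₀ b₁) (h : Lg O U R l g A k) (a : α) (z : VV n) :
    ww R b₀ b₁ g a z ≤ 3 := by
  have h1 := m.tw2 (g := g) a z
  have h2 : (R a)⁻¹ ≤ 1 := inv_le_one_of_one_le₀ (h.R1 a)
  unfold ww
  linarith

theorem sm_uu (m : Mc F χ₀ b₀ b₁) (h : Lg O U R l g A k) (a : α) :
    ContDiffOn ℝ ∞ (uu (F a) (l a) (g a)) (U a) := (h.sm_uf a).add (m.sT h a)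

theorem fd_uu (m : Mc F χ₀ b₀ b₁) (h : Lg O U R l g A k) (a : α) {z : VV n} (hz : z ∈ U a) :
    fderiv ℝ (uu (F a) (l a) (g a)) z =
      fderiv ℝ (uf (l a)) z + fderiv ℝ (Tc (F a) (l a) (g a)) z := by
  have d1 : DifferentiableAt ℝ (uf (l a)) z :=
    ((h.sm_uf a z hz).contDiffAt ((h.oU a).mem_nhds hz)).differentiableAt (by simp)
  have d2 : DifferentiableAt ℝ (Tc (F a) (l a) (g a)) z :=
    ((m.sT h a z hz).contDiffAt ((h.oU a).mem_nhds hz)).differentiableAt (by simp)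
  exact (d1.hasFDerivAt.add d2.hasFDerivAt).fderiv

/-- **`D u = O(1)` at the scale one.** -/
theorem s_du (m : Mc F χ₀ b₀ b₁) (h : Lg O U R l g A k) :
    Sf U (fun _ _ => 1) (fun _ _ => 1) k (fun a => fderiv ℝ (uu (F a) (l a) (g a))) := by
  have h1 : Sf U (fun _ _ => 1) (fun _ _ => 1) k (fun a => fderiv ℝ (uf (l a))) :=
    h.s_uf.mono_ρ (fun a _ _ => h.R0 a) (fun _ _ _ => one_pos) (fun _ _ _ => zero_le_one)
      (A := 1) fun a _ _ => by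
        have := h.R1 a
        linarith
  have h2 := (m.s_dT h).mono (fun _ _ _ => one_pos) (fun a z _ => m.tw0 a z)
    (g₁ := fun _ _ => 1) (A := 2) fun a z _ => by
      have := m.tw2 (g := g) a z
      linarith
  exact (h1.add h.oU h2).congr h.oU fun a z hz => fd_uu m h a hz

/-- **`D u = O(1)` at the scale `r`.** -/
theorem s_dur (m : Mc F χ₀ b₀ b₁) (h : Lg O U R l g A k) (hc : 0 ≤ c)
    (h0 : ∀ a, ∀ z ∈ U a, c < r2 (g a) z) :
    Sf U (fun a z => √(r2 (g a) z)) (fun _ _ => 1) k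
      (fun a => fderiv ℝ (uu (F a) (l a) (g a))) := by
  have hr : ∀ a, ∀ z ∈ U a, 0 < √(r2 (g a) z) := fun a z hz =>
    Real.sqrt_pos.2 (hc.trans_lt (h0 a z hz))
  have h1 := h.s_uf.mono_ρ (fun a _ _ => h.R0 a) hr (fun _ _ _ => zero_le_one) h.rR
  have h2 := ((m.s_dT h).mono_ρ0 (fun _ _ _ => one_pos) hr (fun a z _ => m.tw0 a z) (A := 2)
    fun a z hz => ?_).mono hr (fun a z _ => m.tw0 a z) (g₁ := fun _ _ => 1) (A := 2)
      fun a z _ => by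
        have := m.tw2 (g := g) a z
        linarith
  · exact (h1.add h.oU h2).congr h.oU fun a z hz => fd_uu m h a hz
  · rcases lt_or_ge 4 (r2 (g a) z) with h4 | h4
    · exact Or.inl (tw_far h4)
    · refine Or.inr ?_
      rw [mul_one]
      calc √(r2 (g a) z) ≤ √(2 ^ 2) := Real.sqrt_le_sqrt (by linarith)
        _ = 2 := Real.sqrt_sq zero_le_two

theorem fdd_uu (m : Mc F χ₀ b₀ b₁) (h : Lg O U R l g A k) (a : α) {z : VV n} (hz : z ∈ U a) :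
    fderiv ℝ (fderiv ℝ (uu (F a) (l a) (g a))) z =
      fderiv ℝ (fderiv ℝ (uf (l a))) z + fderiv ℝ (fderiv ℝ (Tc (F a) (l a) (g a))) z := by
  have s1 : ContDiffOn ℝ ∞ (fderiv ℝ (uf (l a))) (U a) :=
    (h.sm_uf a).fderiv_of_isOpen (h.oU a) (by norm_num)
  have s2 : ContDiffOn ℝ ∞ (fderiv ℝ (Tc (F a) (l a) (g a))) (U a) :=
    (m.sT h a).fderiv_of_isOpen (h.oU a) (by norm_num)
  have d1 : DifferentiableAt ℝ (fderiv ℝ (uf (l a))) z :=
    ((s1 z hz).contDiffAt ((h.oU a).mem_nhds hz)).differentiableAt (by simp)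
  have d2 : DifferentiableAt ℝ (fderiv ℝ (Tc (F a) (l a) (g a))) z :=
    ((s2 z hz).contDiffAt ((h.oU a).mem_nhds hz)).differentiableAt (by simp)
  have e : fderiv ℝ (uu (F a) (l a) (g a)) =ᶠ[𝓝 z] fun z =>
      fderiv ℝ (uf (l a)) z + fderiv ℝ (Tc (F a) (l a) (g a)) z := by
    filter_upwards [(h.oU a).mem_nhds hz] with w hw using fd_uu m h a hw
  rw [e.fderiv_eq]
  exact (d1.hasFDerivAt.add d2.hasFDerivAt).fderiv

/-- **`D² u = O(w)` at the scale one.** -/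
theorem s_ddu (m : Mc F χ₀ b₀ b₁) (h : Lg O U R l g A (k + 1)) :
    Sf U (fun _ _ => 1) (ww R b₀ b₁ g) k
      (fun a => fderiv ℝ (fderiv ℝ (uu (F a) (l a) (g a)))) := by
  have h1 : Sf U (fun a _ => R a) (fun a _ => (R a)⁻¹) k
      (fun a => fderiv ℝ (fderiv ℝ (uf (l a)))) := (h.s_uf.fd h.oU).wcongr fun _ _ _ => by simp
  have h2 : Sf U (fun _ _ => 1) (fun a _ => (R a)⁻¹) k
      (fun a => fderiv ℝ (fderiv ℝ (uf (l a)))) :=
    h1.mono_ρ (fun a _ _ => h.R0 a) (fun _ _ _ => one_pos)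
      (fun a _ _ => inv_nonneg.2 (h.R0 a).le) (A := 1) fun a _ _ => by
        have := h.R1 a
        linarith
  have h3 : Sf U (fun _ _ => 1) (tw b₀ b₁ g) k
      (fun a => fderiv ℝ (fderiv ℝ (Tc (F a) (l a) (g a)))) :=
    ((m.s_dT h).fd h.oU).wcongr fun _ _ _ => by simp
  exact (Sf.add' h.oU (fun _ _ _ => one_pos) (fun a _ _ => inv_nonneg.2 (h.R0 a).le)
    (fun a z _ => m.tw0 a z) h2 h3).congr h.oU fun a z hz => fdd_uu m h a hz

/-- `D² u = O(w)` at the scale `r`. -/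
theorem s_ddur (m : Mc F χ₀ b₀ b₁) (h : Lg O U R l g A (k + 1)) (hc : 0 ≤ c)
    (h0 : ∀ a, ∀ z ∈ U a, c < r2 (g a) z) :
    Sf U (fun a z => √(r2 (g a) z)) (ww R b₀ b₁ g) k
      (fun a => fderiv ℝ (fderiv ℝ (uu (F a) (l a) (g a)))) := by
  have hr : ∀ a, ∀ z ∈ U a, 0 < √(r2 (g a) z) := fun a z hz =>
    Real.sqrt_pos.2 (hc.trans_lt (h0 a z hz))
  have h1 : Sf U (fun a _ => R a) (fun a _ => (R a)⁻¹) k
      (fun a => fderiv ℝ (fderiv ℝ (uf (l a)))) := (h.s_uf.fd h.oU).wcongr fun _ _ _ => by simp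
  have h2 := h1.mono_ρ (fun a _ _ => h.R0 a) hr (fun a _ _ => inv_nonneg.2 (h.R0 a).le) h.rR
  have h3 : Sf U (fun _ _ => 1) (tw b₀ b₁ g) k
      (fun a => fderiv ℝ (fderiv ℝ (Tc (F a) (l a) (g a)))) :=
    ((m.s_dT h).fd h.oU).wcongr fun _ _ _ => by simp
  have h4 := h3.mono_ρ0 (fun _ _ _ => one_pos) hr (fun a z _ => m.tw0 a z) (A := 2)
    fun a z hz => ?_
  · exact (Sf.add' h.oU hr (fun a _ _ => inv_nonneg.2 (h.R0 a).le)
      (fun a z _ => m.tw0 a z) h2 h4).congr h.oU fun a z hz => fdd_uu m h a hz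
  · rcases lt_or_ge 4 (r2 (g a) z) with h4 | h4
    · exact Or.inl (tw_far h4)
    · refine Or.inr ?_
      rw [mul_one]
      calc √(r2 (g a) z) ≤ √(2 ^ 2) := Real.sqrt_le_sqrt (by linarith)
        _ = 2 := Real.sqrt_sq zero_le_two

/-- **Off the diagonal.** -/
theorem wf_uu (m : Mc F χ₀ b₀ b₁) (h : Lg O U R l g A k) (hc : 0 ≤ c)
    (h0 : ∀ a, ∀ z ∈ U a, c < r2 (g a) z) :
    Wf U (fun a => uu (F a) (l a) (g a)) (fun a => r2 (g a)) k c where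
  op := h.oU
  su := sm_uu m h
  hρ := h0
  du := s_dur m h hc h0
  dρ := h.s_r2 hc h0

/-- **Near the diagonal.** -/
theorem wn_uu (m : Mc F χ₀ b₀ b₁) (h : Lg O U R l g A k)
    (h1 : ∀ a, ∀ z ∈ U a, r2 (g a) z ≤ c) :
    Wn U (fun a => uu (F a) (l a) (g a)) (fun a => r2 (g a)) k c where
  op := h.oU
  su := sm_uu m h
  h0 a _ hz := h.r20 a hz
  h1 := h1
  du := s_du m h
  dρ := h.s_r2n h1

/-- The data of the far weight `Ψ(φ, r)`: `φ = u + log S(r²)`. -/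
theorem phi_of {S S₁ : ℝ → ℝ} (hS : LS c S S₁) (m : Mc F χ₀ b₀ b₁) (h : Lg O U R l g A k)
    (h0 : ∀ a, ∀ z ∈ U a, c < r2 (g a) z) :
    (∀ a, ContDiffOn ℝ ∞ (fun z => uu (F a) (l a) (g a) z + Real.log (S (r2 (g a) z))) (U a)) ∧
    Sf U (fun a z => √(r2 (g a) z)) (fun _ _ => 1) k
      (fun a => fderiv ℝ fun z => uu (F a) (l a) (g a) z + Real.log (S (r2 (g a) z))) ∧
    Sf U (fun a z => √(r2 (g a) z)) (fun a z => √(r2 (g a) z)) (k + 1)
      (fun a z => √(r2 (g a) z)) := by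
  have w := wf_uu m h hS.c0.le h0
  exact ⟨hS.sfg w, hS.dfg w, w.sqrt hS.c0⟩

end corr

end Vale.Agent.P088.R2.H644.Ep
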